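import Vale.Agent.P284.H625.N.SumS
import Vale.Agent.P284.H275.ResE

/-!
# P284 (helper988), program N, module N6, P2: the sum of the translates of a closed relative form with
flat energy
-/

open scoped Manifold ContDiff Topology ComplexOrder InnerProductSpace ENNReal
open Filter Set Metric MeasureTheory

noncomputable section

set_option linter.unusedSectionVars false

namespace Vale.Agent.P284.H988.N6

open Vale.Agent.P272.K Vale.Agent.P284.H573 Vale.Agent.P284.H619 Vale.Agent.P284.H894.G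
  Vale.Agent.P284.H501 Vale.Agent.P284.H501.Core Vale.Agent.P284.H625.N Vale.Agent.P284.H894.V
  Vale.Agent.P284.H894.W Vale.Agent.P284.H894

/-! ### linear algebra -/

section lin
variable {n q : ℕ} {W : Type} [NormedAddCommGroup W] [NormedSpace ℂ W]

theorem det_aff (A : Cm q ≃ₗ[ℂ] Cm q) (v : Fin q → Cm q) :
    (Matrix.of fun i j : Fin q => A (v i) j).det =
      LinearMap.det (A : Cm q →ₗ[ℂ] Cm q) * (Matrix.of fun i j : Fin q => v i j).det := by
  have h1 : (Matrix.of fun i j : Fin q => A (v i) j) =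
      (Matrix.of fun i j : Fin q => v i j) *
        (LinearMap.toMatrix' (A : Cm q →ₗ[ℂ] Cm q)).transpose := by
    ext i j
    rw [Matrix.mul_apply, Matrix.of_apply]
    have h2 := congrFun (LinearMap.toMatrix'_mulVec (A : Cm q →ₗ[ℂ] Cm q) (v i)) j
    rw [Matrix.mulVec, dotProduct] at h2
    have h3 : A (v i) j = (A : Cm q →ₗ[ℂ] Cm q) (v i) j := rfl
    rw [h3, ← h2]
    refine Finset.sum_congr rfl fun k _ => ?_
    rw [Matrix.of_apply, Matrix.transpose_apply, mul_comm]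
  rw [h1, Matrix.det_mul, Matrix.det_transpose, LinearMap.det_toMatrix', mul_comm]

/-- the linear map `A` as a continuous linear map -/
def cA (A : Cm q ≃ₗ[ℂ] Cm q) : Cm q →L[ℂ] Cm q :=
  LinearMap.toContinuousLinearMap (A : Cm q →ₗ[ℂ] Cm q)

theorem cA_apply (A : Cm q ≃ₗ[ℂ] Cm q) (x : Cm q) : cA A x = A x := rfl

theorem det_ne (A : Cm q ≃ₗ[ℂ] Cm q) : LinearMap.det (A : Cm q →ₗ[ℂ] Cm q) ≠ 0 :=
  A.isUnit_det'.ne_zero

theorem gf_aff (A : Cm q ≃ₗ[ℂ] Cm q) (L : Cm n →L[ℂ] Cm q) (Θ : Cm n → W)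
    (ζ : Fin (q + 1) → Cm n) :
    gf 1 ((cA A).comp L) Θ (fun w => w 0) ζ =
      LinearMap.det (A : Cm q →ₗ[ℂ] Cm q) • gf 1 L Θ (fun w => w 0) ζ := by
  unfold gf
  rw [smul_comm]
  congr 1
  rw [Finset.smul_sum]
  refine Finset.sum_congr rfl fun σ _ => ?_
  have h1 : (Matrix.of fun i j : Fin q => ((cA A).comp L) (ζ (σ (Fin.castAdd 1 i))) j).det =
      LinearMap.det (A : Cm q →ₗ[ℂ] Cm q) *
        (Matrix.of fun i j : Fin q => L (ζ (σ (Fin.castAdd 1 i))) j).det :=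
    det_aff A fun i => L (ζ (σ (Fin.castAdd 1 i)))
  rw [h1, smul_smul, smul_smul, smul_smul]
  congr 1
  ring

end lin

/-! ### one translate -/

section one
variable {n q : ℕ} {X E Γ W : Type} [TopologicalSpace X] [ChartedSpace (Cm n) X]
  [TopologicalSpace E] [Group Γ] [MulAction Γ E] [NormedAddCommGroup W] [InnerProductSpace ℂ W]
  {p : E → X} {F : E → Cm q} {w : Chart n X → Cm n → Matrix (Fin n) (Fin n) ℂ} {B : ℝ}

theorem p_tr (hG : IsGalois Γ p) (γ : Γ) (y : E) : p (γ • y) = p y :=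
  ((hG.orb y (γ • y)).2 ⟨γ, rfl⟩).symm

theorem ev_tr (hG : IsGalois Γ p) (γ : Γ) {y : E} {P : E → Prop} (h : ∀ᶠ y' in 𝓝 y, P y') :
    ∀ᶠ y' in 𝓝 (γ • y), P (γ⁻¹ • y') := by
  have h1 : Tendsto (fun y' : E => γ⁻¹ • y') (𝓝 (γ • y)) (𝓝 y) := by
    have := (hG.cont γ⁻¹).tendsto (γ • y)
    rwa [inv_smul_smul] at this
  exact h1.eventually h

theorem ev_tr' (hG : IsGalois Γ p) (γ : Γ) {y : E} {P : E → Prop}
    (h : ∀ᶠ y' in 𝓝 (γ • y), P y') : ∀ᶠ y' in 𝓝 y, P (γ • y') :=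
  ((hG.cont γ).tendsto y).eventually h

variable {A : Cm q ≃ₗ[ℂ] Cm q} {a : Cm q} {γ : Γ}

theorem rep_aff (hG : IsGalois Γ p) (hA : ∀ y, F (γ • y) = A (F y) + a) {y : E} {e : Chart n X}
    {f : Cm n → Cm q} (hf : H501.Rep p F y e f) :
    H501.Rep p F (γ • y) e (fun z => cA A (f z) + a) := by
  refine ⟨?_, ?_⟩
  · rw [p_tr hG]
    exact (((cA A).analyticAt _).comp hf.1).add analyticAt_const
  · filter_upwards [ev_tr hG γ hf.2] with y' h
    have h1 := hA (γ⁻¹ • y')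
    rw [smul_inv_smul, h, p_tr hG] at h1
    exact h1

theorem fderiv_aff {f : Cm n → Cm q} {z : Cm n} (hf : AnalyticAt ℂ f z) :
    fderiv ℂ (fun z => cA A (f z) + a) z = (cA A).comp (fderiv ℂ f z) := by
  rw [fderiv_add_const]
  exact ((cA A).hasFDerivAt.comp z hf.differentiableAt.hasFDerivAt).fderiv

theorem surj_aff {L : Cm n →L[ℂ] Cm q} (hL : Function.Surjective L) :
    Function.Surjective ((cA A).comp L) := by
  intro x
  obtain ⟨v, hv⟩ := hL (A.symm x)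
  refine ⟨v, ?_⟩
  rw [ContinuousLinearMap.comp_apply, hv, cA_apply, LinearEquiv.apply_symm_apply]

/-- `∫ g (A⁻¹ (x - a)) dx` -/
theorem lint_aff (A : Cm q ≃ₗ[ℂ] Cm q) (a : Cm q) : ∃ C : ℝ≥0∞, C ≠ ⊤ ∧
    ∀ g : Cm q → ℝ≥0∞, Measurable g → ∫⁻ x, g (A.symm (x - a)) = C * ∫⁻ x, g x := by
  set L : Cm q →ₗ[ℝ] Cm q := (A : Cm q →ₗ[ℂ] Cm q).restrictScalars ℝ with hL
  have hLinj : Function.Injective L := A.injective
  have hdet : LinearMap.det L ≠ 0 := by
    have h1 : IsUnit (LinearMap.det L) := by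
      have h2 : L = ((A.restrictScalars ℝ : Cm q ≃ₗ[ℝ] Cm q) : Cm q →ₗ[ℝ] Cm q) := rfl
      rw [h2]
      exact (A.restrictScalars ℝ).isUnit_det'
    exact h1.ne_zero
  refine ⟨ENNReal.ofReal |LinearMap.det L|, ENNReal.ofReal_ne_top, fun g hg => ?_⟩
  have h1 : ∫⁻ x, g (A.symm (x - a)) = ∫⁻ x, g (A.symm x) :=
    lintegral_sub_right_eq_self (fun x => g (A.symm x)) a
  rw [h1]
  have h2 := MeasureTheory.Measure.map_linearMap_addHaar_eq_smul_addHaar
    (μ := (volume : Measure (Cm q))) hdet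
  have hLm : Measurable L := (LinearMap.toContinuousLinearMap L).continuous.measurable
  have h3 : ∫⁻ x, g x = ∫⁻ x, g (A.symm (L x)) := by
    refine lintegral_congr fun x => ?_
    congr 1
    exact (A.symm_apply_apply x).symm
  have hAm : Measurable fun x => g (A.symm x) := by
    refine hg.comp ?_
    exact (LinearMap.toContinuousLinearMap (A.symm : Cm q →ₗ[ℂ] Cm q)).continuous.measurable
  have h4 : ∫⁻ x, g (A.symm (L x)) = ∫⁻ x, g (A.symm x) ∂(Measure.map L volume) :=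
    (lintegral_map hAm hLm).symm
  rw [h3, h4, h2, lintegral_smul_measure, smul_eq_mul, ← mul_assoc, ← ENNReal.ofReal_mul (abs_nonneg _),
    abs_inv, mul_inv_cancel₀ (abs_ne_zero.2 hdet), ENNReal.ofReal_one, one_mul]

end one

/-! ### closed relative forms -/

theorem sq_add_le (a b : ℝ≥0∞) : (a + b) ^ 2 ≤ 4 * (a ^ 2 + b ^ 2) := by
  rcases le_total a b with h | h
  · calc (a + b) ^ 2 ≤ (b + b) ^ 2 := by gcongr
      _ = 4 * b ^ 2 := by ring
      _ ≤ 4 * (a ^ 2 + b ^ 2) := by gcongr; exact le_add_self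
  · calc (a + b) ^ 2 ≤ (a + a) ^ 2 := by gcongr
      _ = 4 * a ^ 2 := by ring
      _ ≤ 4 * (a ^ 2 + b ^ 2) := by gcongr; exact le_self_add

section rc
variable {n q m : ℕ} {X E W : Type} [TopologicalSpace X] [ChartedSpace (Cm n) X]
  [TopologicalSpace E] [NormedAddCommGroup W] [NormedSpace ℂ W] {p : E → X} {F : E → Cm q}

/-- the local representatives of `S` are closed -/
def ClE (p : E → X) (S : E → Chart n X → Cm n [⋀^Fin m]→L[ℂ] W) : Prop :=
  ∀ y e (s : Cm n → Cm n [⋀^Fin m]→L[ℂ] W), At e (p y) →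
    AnalyticAt ℂ s (e (p y)) → (∀ᶠ y' in 𝓝 y, S y' e = s (e (p y'))) →
    ∀ᶠ z in 𝓝 (e (p y)), extDeriv s z = 0

/-- a closed relative form with flat energy -/
structure RC (p : E → X) (F : E → Cm q) (S : E → Chart n X → Cm n [⋀^Fin (q + 1)]→L[ℂ] W) :
    Prop where
  rel : RelS p F S
  cl : ClE p S

theorem rc_map [CompleteSpace W] {W₀ : Type} [NormedAddCommGroup W₀] [NormedSpace ℂ W₀]
    (hp : IsCoveringMap p) (P : W →L[ℂ] W₀)
    {S : E → Chart n X → Cm n [⋀^Fin (q + 1)]→L[ℂ] W} (h : RC p F S) : RC p F (H275.mapF P S) :=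
  ⟨H275.relS_map hp P h.rel, fun y e s' he _ hs' =>
    H275.closed_map hp P h.rel.form h.cl y e s' he hs'⟩

theorem rc_zero (hp : IsLocalHomeomorph p) :
    RC p F (fun (_ : E) (_ : Chart n X) => (0 : Cm n [⋀^Fin (q + 1)]→L[ℂ] W)) := by
  have key : ∀ y e (s : Cm n → Cm n [⋀^Fin (q + 1)]→L[ℂ] W), At e (p y) →
      (∀ᶠ y' in 𝓝 y, (0 : Cm n [⋀^Fin (q + 1)]→L[ℂ] W) = s (e (p y'))) →
      ∀ᶠ z in 𝓝 (e (p y)), s z = 0 := by
    intro y e s he hs
    exact (ep_ev hp he).1 (hs.mono fun y' h => h.symm)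
  refine ⟨⟨⟨fun y e he => ⟨fun _ => 0, analyticAt_const, Eventually.of_forall fun _ => rfl⟩,
    fun y e e' he he' ξ => rfl⟩, fun y e f he hf hs ξ i j hij hi hj => rfl,
    fun y e f s he hf hs hse => ?_⟩, fun y e s he hs hse => ?_⟩
  · obtain ⟨O, hO, hOo, hyO⟩ := _root_.mem_nhds_iff.1 (key y e s he hse)
    refine ⟨O, hOo.mem_nhds hyO, 0, ENNReal.zero_ne_top, fun g hg => ?_⟩
    rw [zero_mul]
    refine le_of_eq ((setLIntegral_congr_fun hOo.measurableSet fun z hz => ?_).trans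
      (lintegral_zero))
    have h1 : s z = 0 := hO hz
    have h2 : ‖s z‖ₑ = 0 := by rw [h1, ← ofReal_norm, norm_zero, ENNReal.ofReal_zero]
    show g (f z) * ‖s z‖ₑ ^ 2 = 0
    rw [h2]
    simp
  · filter_upwards [(key y e s he hse).eventually_nhds] with z h1
    have h2 : s =ᶠ[𝓝 z] fun _ => 0 := h1
    rw [h2.extDeriv_eq]
    ext ξ
    rw [extDeriv_apply (differentiableAt_const _)]
    simp

theorem rc_add [CompleteSpace W] (hp : IsCoveringMap p) {S S' : E → Chart n X → Cm n [⋀^Fin (q + 1)]→L[ℂ] W}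
    (h : RC p F S) (h' : RC p F S') : RC p F (fun y e => S y e + S' y e) := by
  have key : ∀ y e (s : Cm n → Cm n [⋀^Fin (q + 1)]→L[ℂ] W), At e (p y) →
      (∀ᶠ y' in 𝓝 y, S y' e + S' y' e = s (e (p y'))) →
      ∃ s₁ s₂ : Cm n → Cm n [⋀^Fin (q + 1)]→L[ℂ] W, AnalyticAt ℂ s₁ (e (p y)) ∧
        AnalyticAt ℂ s₂ (e (p y)) ∧ (∀ᶠ y' in 𝓝 y, S y' e = s₁ (e (p y'))) ∧
        (∀ᶠ y' in 𝓝 y, S' y' e = s₂ (e (p y'))) ∧ ∀ᶠ z in 𝓝 (e (p y)), s z = s₁ z + s₂ z := by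
    intro y e s he hs
    obtain ⟨s₁, h1, h2⟩ := h.rel.form.holo y e he
    obtain ⟨s₂, h3, h4⟩ := h'.rel.form.holo y e he
    refine ⟨s₁, s₂, h1, h3, h2, h4, (ep_ev hp.isLocalHomeomorph he).1 ?_⟩
    filter_upwards [hs, h2, h4] with y' a b c
    rw [← a, b, c]
  refine ⟨⟨⟨fun y e he => ?_, fun y e e' he he' ξ => ?_⟩, fun y e f he hf hs ξ i j hij hi hj => ?_,
    fun y e f s he hf hs hse => ?_⟩, fun y e s he hs hse => ?_⟩
  · obtain ⟨s₁, h1, h2⟩ := h.rel.form.holo y e he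
    obtain ⟨s₂, h3, h4⟩ := h'.rel.form.holo y e he
    refine ⟨fun z => s₁ z + s₂ z, h1.add h3, ?_⟩
    filter_upwards [h2, h4] with y' b c
    rw [b, c]
  · rw [ContinuousAlternatingMap.add_apply, ContinuousAlternatingMap.add_apply,
      h.rel.form.change y e e' he he', h'.rel.form.change y e e' he he']
  · rw [ContinuousAlternatingMap.add_apply, h.rel.rel y e f he hf hs ξ i j hij hi hj,
      h'.rel.rel y e f he hf hs ξ i j hij hi hj, add_zero]
  · obtain ⟨s₁, s₂, h1, h3, h2, h4, h5⟩ := key y e s he hse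
    obtain ⟨V₁, hV₁, C₁, hC₁, hp₁⟩ := h.rel.push y e f s₁ he hf h1 h2
    obtain ⟨V₂, hV₂, C₂, hC₂, hp₂⟩ := h'.rel.push y e f s₂ he hf h3 h4
    obtain ⟨O, hO, hOo, hyO⟩ := _root_.mem_nhds_iff.1 (inter_mem (inter_mem (inter_mem hV₁ hV₂) h5)
      (inter_mem hf.1.eventually_analyticAt h1.eventually_analyticAt))
    refine ⟨O, hOo.mem_nhds hyO, 4 * (C₁ + C₂), ?_, fun g hg => ?_⟩
    · exact ENNReal.mul_ne_top (by simp) (ENNReal.add_ne_top.2 ⟨hC₁, hC₂⟩)
    · have hfc : ContinuousOn f O := fun z hz => (hO hz).2.1.continuousAt.continuousWithinAt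
      have hsc : ContinuousOn s₁ O := fun z hz => (hO hz).2.2.continuousAt.continuousWithinAt
      have hm : AEMeasurable (fun z => g (f z) * ‖s₁ z‖ₑ ^ 2) (volume.restrict O) :=
        (hg.comp_aemeasurable (hfc.aemeasurable hOo.measurableSet)).mul
          ((hsc.enorm.aemeasurable hOo.measurableSet).pow_const 2)
      have k1 : ∀ z ∈ O, g (f z) * ‖s z‖ₑ ^ 2 ≤
          4 * (g (f z) * ‖s₁ z‖ₑ ^ 2 + g (f z) * ‖s₂ z‖ₑ ^ 2) := by
        intro z hz
        have e1 : s z = s₁ z + s₂ z := (hO hz).1.2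
        have e2 : ‖s z‖ₑ ≤ ‖s₁ z‖ₑ + ‖s₂ z‖ₑ := by
          rw [e1]
          exact enorm_add_le (s₁ z) (s₂ z)
        have e3 : ‖s z‖ₑ ^ 2 ≤ 4 * (‖s₁ z‖ₑ ^ 2 + ‖s₂ z‖ₑ ^ 2) :=
          (pow_le_pow_left' e2 2).trans (sq_add_le _ _)
        calc g (f z) * ‖s z‖ₑ ^ 2 ≤ g (f z) * (4 * (‖s₁ z‖ₑ ^ 2 + ‖s₂ z‖ₑ ^ 2)) := by gcongr
          _ = _ := by ring
      calc ∫⁻ z in O, g (f z) * ‖s z‖ₑ ^ 2
          ≤ ∫⁻ z in O, 4 * (g (f z) * ‖s₁ z‖ₑ ^ 2 + g (f z) * ‖s₂ z‖ₑ ^ 2) :=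
            setLIntegral_mono' hOo.measurableSet k1
        _ = 4 * ((∫⁻ z in O, g (f z) * ‖s₁ z‖ₑ ^ 2) + (∫⁻ z in O, g (f z) * ‖s₂ z‖ₑ ^ 2)) := by
            rw [lintegral_const_mul' _ _ (by simp), lintegral_add_left' hm]
        _ ≤ 4 * (C₁ * (∫⁻ x, g x) + C₂ * (∫⁻ x, g x)) := by
            gcongr
            · exact (lintegral_mono_set fun z hz => (hO hz).1.1.1).trans (hp₁ g hg)
            · exact (lintegral_mono_set fun z hz => (hO hz).1.1.2).trans (hp₂ g hg)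
        _ = _ := by ring
  · obtain ⟨s₁, s₂, h1, h3, h2, h4, h5⟩ := key y e s he hse
    filter_upwards [h5.eventually_nhds, h.cl y e s₁ he h1 h2, h'.cl y e s₂ he h3 h4,
      h1.eventually_analyticAt, h3.eventually_analyticAt] with z a b c d e'
    have h6 : s =ᶠ[𝓝 z] fun z => s₁ z + s₂ z := a
    rw [h6.extDeriv_eq, extDeriv_fun_add d.differentiableAt e'.differentiableAt, b, c, add_zero]

end rc

/-! ### the translates -/

section trans
variable {n q : ℕ} {X E Γ W : Type} [TopologicalSpace X] [ChartedSpace (Cm n) X]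
  [TopologicalSpace E] [Group Γ] [MulAction Γ E] [NormedAddCommGroup W] [InnerProductSpace ℂ W]
  {p : E → X} {F : E → Cm q} {A : Cm q ≃ₗ[ℂ] Cm q} {a : Cm q} {γ : Γ}
  {S : E → Chart n X → Cm n [⋀^Fin (q + 1)]→L[ℂ] W}

/-- a translate of a closed relative form with flat energy -/
theorem rc_tr (hG : IsGalois Γ p) (hA : ∀ y, F (γ • y) = A (F y) + a) (h : RC p F S) :
    RC p F (fun y e => S (γ • y) e) := by
  have hat : ∀ {y : E} {e : Chart n X}, At e (p y) → At e (p (γ • y)) := by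
    intro y e he
    rw [p_tr hG]
    exact he
  refine ⟨⟨⟨fun y e he => ?_, fun y e e' he he' ξ => ?_⟩, fun y e f he hf hs ξ i j hij hi hj => ?_,
    fun y e f s he hf hs hse => ?_⟩, fun y e s he hs hse => ?_⟩
  · obtain ⟨s, h1, h2⟩ := h.rel.form.holo (γ • y) e (hat he)
    rw [p_tr hG] at h1
    refine ⟨s, h1, ?_⟩
    filter_upwards [ev_tr' hG γ h2] with y' h3
    rw [h3, p_tr hG]
  · have h1 := h.rel.form.change (γ • y) e e' (hat he) (hat he') ξ
    rw [p_tr hG] at h1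
    exact h1
  · have hd : fderiv ℂ (fun z => cA A (f z) + a) (e (p (γ • y))) =
        (cA A).comp (fderiv ℂ f (e (p y))) := by
      rw [p_tr hG]
      exact fderiv_aff hf.1
    refine h.rel.rel (γ • y) e _ (hat he) (rep_aff hG hA hf) ?_ ξ i j hij ?_ ?_
    · rw [hd]
      exact surj_aff hs
    · rw [hd, ContinuousLinearMap.comp_apply, hi, map_zero]
    · rw [hd, ContinuousLinearMap.comp_apply, hj, map_zero]
  · have hse' : ∀ᶠ y' in 𝓝 (γ • y), S y' e = s (e (p y')) := by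
      filter_upwards [ev_tr hG γ hse] with y' h3
      rw [smul_inv_smul, p_tr hG] at h3
      exact h3
    obtain ⟨V, hV, C, hC, hpush⟩ := h.rel.push (γ • y) e _ s (hat he) (rep_aff hG hA hf)
      (by rw [p_tr hG]; exact hs) hse'
    rw [p_tr hG] at hV
    obtain ⟨C', hC', hC'2⟩ := lint_aff A a
    refine ⟨V, hV, C * C', ENNReal.mul_ne_top hC hC', fun g hg => ?_⟩
    have hgm : Measurable fun x : Cm q => g (A.symm (x - a)) := by
      refine hg.comp ?_
      have h1 : Measurable fun x : Cm q => (A.symm : Cm q →ₗ[ℂ] Cm q) x :=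
        (LinearMap.toContinuousLinearMap (A.symm : Cm q →ₗ[ℂ] Cm q)).continuous.measurable
      exact h1.comp (measurable_id.sub_const a)
    have h4 := hpush (fun x => g (A.symm (x - a))) hgm
    rw [hC'2 g hg, ← mul_assoc] at h4
    refine le_trans (le_of_eq ?_) h4
    refine lintegral_congr fun z => ?_
    show g (f z) * ‖s z‖ₑ ^ 2 = g (A.symm (cA A (f z) + a - a)) * ‖s z‖ₑ ^ 2
    rw [add_sub_cancel_right, cA_apply, LinearEquiv.symm_apply_apply]
  · have hse' : ∀ᶠ y' in 𝓝 (γ • y), S y' e = s (e (p y')) := by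
      filter_upwards [ev_tr hG γ hse] with y' h3
      rw [smul_inv_smul, p_tr hG] at h3
      exact h3
    have h1 := h.cl (γ • y) e s (hat he) (by rw [p_tr hG]; exact hs) hse'
    rwa [p_tr hG] at h1

end trans

/-! ### the sum -/

section sum
variable {n q : ℕ} {X E Γ W : Type} [TopologicalSpace X] [ChartedSpace (Cm n) X]
  [TopologicalSpace E] [Group Γ] [MulAction Γ E] [NormedAddCommGroup W] [InnerProductSpace ℂ W]
  {p : E → X} {F : E → Cm q} {w : Chart n X → Cm n → Matrix (Fin n) (Fin n) ℂ} {B : ℝ}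
  {G : Subgroup Γ} [Fintype (Γ ⧸ G)] {A : Γ → (Cm q ≃ₗ[ℂ] Cm q)} {a : Γ → Cm q}
  {S : E → Chart n X → Cm n [⋀^Fin (q + 1)]→L[ℂ] W} {Θ : E → Chart n X → (Cm n →L[ℂ] W)}

open Classical in
/-- the inclusion of a component -/
def asm (G : Subgroup Γ) [Fintype (Γ ⧸ G)] (W : Type) [NormedAddCommGroup W]
    [InnerProductSpace ℂ W] (i : Γ ⧸ G) : W →L[ℂ] Tot G W :=
  (toTot G).comp (ContinuousLinearMap.single ℂ (fun _ : Γ ⧸ G => W) i)

open Classical in
theorem asm_apply (i j : Γ ⧸ G) (x : W) : asm G W i x j = if j = i then x else 0 := by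
  show (Pi.single i x : Γ ⧸ G → W) j = _
  rw [Pi.single_apply]

theorem sumS_eq (A : Γ → (Cm q ≃ₗ[ℂ] Cm q)) (S : E → Chart n X → Cm n [⋀^Fin (q + 1)]→L[ℂ] W)
    (y : E) (e : Chart n X) : sumS G A S y e = ∑ i : Γ ⧸ G,
    H275.mapF ((LinearMap.det (A (tr G i) : Cm q →ₗ[ℂ] Cm q))⁻¹ • asm G W i)
      (fun y e => S (tr G i • y) e) y e := by
  classical
  ext ξ j
  rw [sumS_apply, ContinuousAlternatingMap.sum_apply]
  have h1 : (∑ i : Γ ⧸ G, H275.mapF ((LinearMap.det (A (tr G i) : Cm q →ₗ[ℂ] Cm q))⁻¹ • asm G W i)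
      (fun y e => S (tr G i • y) e) y e ξ) j = ∑ i : Γ ⧸ G,
      (H275.mapF ((LinearMap.det (A (tr G i) : Cm q →ₗ[ℂ] Cm q))⁻¹ • asm G W i)
      (fun y e => S (tr G i • y) e) y e ξ) j := by
    rw [WithLp.ofLp_sum, Finset.sum_apply]
  rw [h1]
  have h2 : ∀ i : Γ ⧸ G, (H275.mapF ((LinearMap.det (A (tr G i) : Cm q →ₗ[ℂ] Cm q))⁻¹ • asm G W i)
      (fun y e => S (tr G i • y) e) y e ξ) j =
      if j = i then (LinearMap.det (A (tr G i) : Cm q →ₗ[ℂ] Cm q))⁻¹ • S (tr G i • y) e ξ else 0 := by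
    intro i
    rw [H275.mapF_apply]
    show (LinearMap.det (A (tr G i) : Cm q →ₗ[ℂ] Cm q))⁻¹ • (asm G W i (S (tr G i • y) e ξ)) j = _
    rw [asm_apply]
    split_ifs
    · rfl
    · rw [smul_zero]
  rw [Finset.sum_congr rfl fun i _ => h2 i, Finset.sum_ite_eq, if_pos (Finset.mem_univ _)]

/-- **P2** -/
theorem sum_rel [CompleteSpace W] [IsManifold 𝓘(ℂ, Cm n) ω X] (hG : IsGalois Γ p)
    [G.Normal] (hF : HolB p w F B) (hA : ∀ γ y, F (γ • y) = A γ (F y) + a γ)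
    {c : G → Cm q} (hc : ∀ (g : G) y, F ((g : Γ) • y) = F y + c g) {π : G →* (W ≃ₗᵢ[ℂ] W)}
    (hS : SRel p F π S Θ) : SRel p F ((indR G π).comp G.subtype) (sumS G A S) (sumT G Θ) := by
  have hp := hG.cov
  have hp' := hp.isLocalHomeomorph
  have hat : ∀ (γ : Γ) {y : E} {e : Chart n X}, At e (p y) → At e (p (γ • y)) := by
    intro γ y e he
    rw [p_tr hG]
    exact he
  have hRC : RC p F S := ⟨hS.rel, hS.closed⟩
  have hsum : RC p F (sumS G A S) := by
    have h1 : ∀ i : Γ ⧸ G, RC p F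
        (H275.mapF ((LinearMap.det (A (tr G i) : Cm q →ₗ[ℂ] Cm q))⁻¹ • asm G W i)
          (fun y e => S (tr G i • y) e)) :=
      fun i => rc_map hp _ (rc_tr hG (hA (tr G i)) hRC)
    have h2 : RC p F (∑ i : Γ ⧸ G,
        H275.mapF ((LinearMap.det (A (tr G i) : Cm q →ₗ[ℂ] Cm q))⁻¹ • asm G W i)
          (fun y e => S (tr G i • y) e)) :=
      Finset.sum_induction _ (RC p F) (fun a b ha hb => rc_add hp ha hb) (rc_zero hp')
        fun i _ => h1 i
    have h3 : sumS G A S = ∑ i : Γ ⧸ G,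
        H275.mapF ((LinearMap.det (A (tr G i) : Cm q →ₗ[ℂ] Cm q))⁻¹ • asm G W i)
          (fun y e => S (tr G i • y) e) := by
      funext y e
      rw [sumS_eq, Finset.sum_apply, Finset.sum_apply]
    rw [h3]
    exact h2
  refine ⟨hsum.rel, hsum.cl, fun g y e he ξ => ?_, ?_, ?_⟩
  · ext i
    show sumS G A S ((g : Γ) • y) e ξ i = indR G π (g : Γ) (sumS G A S y e ξ) i
    rw [indR_mem, sumS_apply, sumS_apply, map_smul]
    congr 1
    have h1 : tr G i • (g : Γ) • y = (coc G (g : Γ) i) • tr G i • y := by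
      show tr G i • (g : Γ) • y = (coc G (g : Γ) i : Γ) • tr G i • y
      rw [coc_mem, smul_smul, smul_smul]
      congr 1
      group
    rw [h1]
    exact hS.equi _ _ _ (hat _ he) _
  · obtain ⟨y, e, he, ξ, hξ⟩ := hS.ne
    set i : Γ ⧸ G := ((1 : Γ) : Γ ⧸ G) with hi
    refine ⟨(tr G i)⁻¹ • y, e, hat _ he, ξ, fun h0 => ?_⟩
    have h1 : sumS G A S ((tr G i)⁻¹ • y) e ξ i = 0 := by rw [h0]; rfl
    rw [sumS_apply, smul_inv_smul] at h1
    rcases smul_eq_zero.1 h1 with h2 | h2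
    · exact det_ne _ (inv_eq_zero.1 h2)
    · exact hξ h2
  · intro y e f he hf hs Θ' hΘ' ξ hξ
    ext i
    rw [sumT_apply]
    have hd : fderiv ℂ (fun z => cA (A (tr G i)) (f z) + a (tr G i)) (e (p (tr G i • y))) =
        (cA (A (tr G i))).comp (fderiv ℂ f (e (p y))) := by
      rw [p_tr hG]
      exact fderiv_aff hf.1
    -- the component of `Θ'`
    set P : Tot G W →L[ℂ] W := PiLp.proj 2 (fun _ : Γ ⧸ G => W) i with hP
    have h1 : IsW (fderiv ℂ (fun z => cA (A (tr G i)) (f z) + a (tr G i)) (e (p (tr G i • y))))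
        (S (tr G i • y) e) (P.comp Θ') := by
      intro ζ
      have h2 := hΘ' ζ
      have h3 : sumS G A S y e ζ i =
          gf 1 (fderiv ℂ f (e (p y))) (P.comp Θ') (fun w => w 0) ζ := by
        have h4 := congrArg (fun x : Tot G W => P x) h2
        refine h4.trans ?_
        show P (gf 1 (fderiv ℂ f (e (p y))) (⇑Θ') (fun w => w 0) ζ) = _
        unfold gf
        rw [map_smul, map_sum]
        congr 1
      rw [hd, gf_aff, ← h3, sumS_apply, smul_smul, mul_inv_cancel₀ (det_ne _), one_smul]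
    have h5 := hS.th (tr G i • y) e _ (hat _ he) (rep_aff hG (hA (tr G i)) hf)
      (by rw [hd]; exact surj_aff hs) _ h1 ξ (by
        rw [hd, ContinuousLinearMap.comp_apply, hξ, map_zero])
    rw [h5]
    rfl

end sum

end Vale.Agent.P284.H988.N6
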